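import Vale.Agent.P318.H986.GuvH
import Vale.Agent.P318.H664.Cond

/-! # P318, the condenser package with general base `h = 2^j` (sections 1.1 - 1.3 of H6/PROOF.md)

Output dimension `a ≥ 2w + 2j`, `2^(2j)` seeds, sets of size `≤ 2^w`, input dimension `d`. -/

namespace Vale.Agent.P318.H986

open Finset Polynomial Vale.Agent.P318.Vec Vale.Agent.P318.Cond

/-- The scalar condenser, all exponents free: `q = 2^(2j)` seeds, `h = 2^j`,
`F_2^{n (2j)} → F_2^{m (2j)}`, sets of size `≤ (2^j)^m`, loss `(n-1)(2^j-1)m`. -/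
theorem exists_condH (j n m : ℕ) (hj : j ≠ 0) (hn : 2 ≤ n) (hm : 1 ≤ m) :
    ∃ E : Fin (2 ^ (2 * j)) →
        ((Fin (n * (2 * j)) → ZMod 2) →ₗ[ZMod 2] (Fin (m * (2 * j)) → ZMod 2)),
      (∀ S : Finset (Fin (2 ^ (2 * j))),
        Less (fun y f => E y f) S ((2 ^ j) ^ m) ((n - 1) * (2 ^ j - 1) * m)) ∧
      (∀ f, f ≠ 0 → (univ.filter (fun y => E y f = 0)).card ≤ n - 1) := by
  classical
  have he : 2 * j ≠ 0 := by omega
  let K := GaloisField 2 (2 * j)
  have : NeZero n := ⟨by omega⟩
  let L := FiniteField.Extension K 2 n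
  have hKfin : Module.finrank (ZMod 2) K = 2 * j := GaloisField.finrank 2 he
  have hfr : Module.finrank K L = n := FiniteField.finrank_extension K 2 n
  have : Fintype K := Fintype.ofFinite K
  have hKc : Fintype.card K = 2 ^ (2 * j) := by
    rw [Fintype.card_eq_nat_card]; exact GaloisField.card 2 (2 * j) he
  have : Algebra.IsSeparable K L := inferInstance
  let pb : PowerBasis K L := Field.powerBasisOfFiniteOfSeparable K L
  have hdim : pb.dim = n := pb.finrank.symm.trans hfr
  have hint : IsIntegral K pb.gen := pb.isIntegral_gen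
  let P : K[X] := minpoly K pb.gen
  have hPm : P.Monic := minpoly.monic hint
  have hPi : Irreducible P := minpoly.irreducible hint
  have hPd : P.natDegree = n := by rw [← hdim]; exact pb.natDegree_minpoly
  have hKR : Module.Finite K (AdjoinRoot P) := (AdjoinRoot.powerBasis' hPm).finite
  have hZK : Module.Finite (ZMod 2) K := Module.Finite.of_finite
  have hZR : Module.Finite (ZMod 2) (AdjoinRoot P) := Module.Finite.trans K (AdjoinRoot P)
  have hRfin : Module.finrank (ZMod 2) (AdjoinRoot P) = n * (2 * j) := by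
    have h1 : Module.finrank K (AdjoinRoot P) = n := by
      rw [(AdjoinRoot.powerBasis' hPm).finrank, AdjoinRoot.powerBasis'_dim, hPd]
    rw [← Module.finrank_mul_finrank (ZMod 2) K (AdjoinRoot P), hKfin, h1, mul_comm]
  have hK2 : CharP K 2 := inferInstance
  let σL : (Fin (n * (2 * j)) → ZMod 2) ≃ₗ[ZMod 2] AdjoinRoot P := LinearEquiv.ofFinrankEq _ _ (by
    rw [hRfin]; simp)
  let σA : (Fin m → K) ≃ₗ[ZMod 2] (Fin (m * (2 * j)) → ZMod 2) := LinearEquiv.ofFinrankEq _ _ (by
    rw [Module.finrank_pi_fintype]; simp [hKfin])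
  let σK : Fin (2 ^ (2 * j)) ≃ K := (Fintype.equivFinOfCardEq hKc).symm
  let EL : K → (AdjoinRoot P →ₗ[ZMod 2] (Fin m → K)) := fun y =>
    AddMonoidHom.toZModLinearMap 2
      { toFun := GH.guv P hPm (2 ^ j) m y
        map_zero' := by
          have h := GH.guv_add P hPm hPi j m y 0 0
          rw [add_zero] at h
          exact left_eq_add.1 h
        map_add' := GH.guv_add P hPm hPi j m y }
  have hEL : ∀ y x, EL y x = GH.guv P hPm (2 ^ j) m y x := fun _ _ => rfl
  refine ⟨fun y => σA.toLinearMap ∘ₗ (EL (σK y)) ∘ₗ σL.toLinearMap, ?_, ?_⟩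
  · intro S U hU
    have h1 := GH.guv_expand P hPm hPi (by rw [hPd]; exact hn) (2 ^ j) m Nat.one_le_two_pow
      (S.image σK) (U.image σL) (Finset.card_image_le.trans hU)
    rw [Finset.card_image_of_injective _ σK.injective,
      Finset.card_image_of_injective _ σL.injective, hPd,
      Finset.sum_image (fun a _ b _ h => σK.injective h)] at h1
    have h2 : ∀ y ∈ S, ((U.image σL).image (GH.guv P hPm (2 ^ j) m (σK y))).card
        = (U.image (fun f => (σA.toLinearMap ∘ₗ (EL (σK y)) ∘ₗ σL.toLinearMap) f)).card := by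
      intro y _
      have h3 : U.image (fun f => (σA.toLinearMap ∘ₗ (EL (σK y)) ∘ₗ σL.toLinearMap) f)
          = ((U.image σL).image (GH.guv P hPm (2 ^ j) m (σK y))).image σA := by
        rw [Finset.image_image, Finset.image_image]
        rfl
      rw [h3, Finset.card_image_of_injective _ σA.injective]
    rw [Finset.sum_congr rfl h2] at h1
    beta_reduce
    exact h1
  · intro f hf
    have hfl : σL f ≠ 0 := by simpa using hf
    by_contra hcon
    rw [not_le] at hcon
    have h1 := GH.guv_kill P hPm (by rw [hPd]; omega) (2 ^ j) m hm (σL f) hfl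
      ((univ.filter (fun y => (σA.toLinearMap ∘ₗ (EL (σK y)) ∘ₗ σL.toLinearMap) f = 0)).image σK) (by
        intro y hy
        obtain ⟨z, hz, rfl⟩ := mem_image.1 hy
        have h2 : σA (EL (σK z) (σL f)) = 0 := (mem_filter.1 hz).2
        rw [map_eq_zero_iff _ σA.injective] at h2
        exact h2)
    rw [Finset.card_image_of_injective _ σK.injective, hPd] at h1
    exact absurd h1 (not_le.2 hcon)

/-- monotonicity in the size of the sets and in the loss. -/
theorem Less.mono' {ι La A : Type*} [DecidableEq A] {E : ι → La → A} {S : Finset ι} {W W' ℓ ℓ' : ℕ}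
    (h : Less E S W ℓ) (hW : W' ≤ W) (hℓ : ℓ ≤ ℓ') : Less E S W' ℓ' := by
  intro U hU
  refine (h U (hU.trans hW)).trans (Nat.add_le_add_left (Nat.mul_le_mul_right _ hℓ) _)

/-- postcomposition with an injection. -/
theorem Less.post_inj {ι La A A' : Type*} [DecidableEq A] [DecidableEq A'] {E : ι → La → A}
    {S : Finset ι} {W ℓ : ℕ} (h : Less E S W ℓ) (g : A → A') (hg : Function.Injective g) :
    Less (fun y f => g (E y f)) S W ℓ := by
  classical
  intro U hU
  have h1 := h U hU
  have h2 : ∀ y ∈ S, (U.image (E y)).card = (U.image (fun f => g (E y f))).card := by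
    intro y _
    rw [← Finset.card_image_of_injective (U.image (E y)) hg, Finset.image_image]
    rfl
  rw [Finset.sum_congr rfl h2] at h1
  exact h1

/-- labels are carried along. -/
theorem Less.label {ι La A L : Type*} [DecidableEq A] [DecidableEq L] {E : ι → La → A}
    {S : Finset ι} {W ℓ : ℕ} (h : Less E S W ℓ) :
    Less (fun y (p : La × L) => (E y p.1, p.2)) S W ℓ := by
  classical
  intro U hU
  -- fibres over the labels
  let T : Finset L := U.image Prod.snd
  let fib : L → Finset La := fun l => (U.filter fun p => p.2 = l).image Prod.fst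
  have hfib : ∀ l, (fib l).card = (U.filter fun p => p.2 = l).card := by
    intro l
    refine card_image_of_injOn ?_
    intro p hp p' hp' hpp
    simp only [coe_filter, Set.mem_ofPred_eq] at hp hp'
    exact Prod.ext hpp (hp.2.trans hp'.2.symm)
  have hU1 : U.card = ∑ l ∈ T, (fib l).card := by
    rw [card_eq_sum_card_image Prod.snd U]
    exact sum_congr rfl fun l _ => (hfib l).symm
  have hU2 : ∀ y, (U.image fun p : La × L => (E y p.1, p.2)).card
      = ∑ l ∈ T, ((fib l).image (E y)).card := by
    intro y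
    have e1 : (U.image fun p : La × L => (E y p.1, p.2)).image Prod.snd = T := by
      rw [image_image]; rfl
    rw [card_eq_sum_card_image Prod.snd, e1]
    refine sum_congr rfl fun l _ => ?_
    have e2 : (U.image fun p : La × L => (E y p.1, p.2)).filter (fun p => p.2 = l)
        = ((fib l).image (E y)).image (fun b => (b, l)) := by
      ext ⟨b, l'⟩
      simp only [mem_filter, mem_image, Prod.mk.injEq, fib]
      constructor
      · rintro ⟨⟨⟨x, l''⟩, hx, rfl, rfl⟩, hl⟩
        subst hl
        exact ⟨_, ⟨x, ⟨(x, l''), ⟨hx, rfl⟩, rfl⟩, rfl⟩, rfl, rfl⟩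
      · rintro ⟨_, ⟨x, ⟨⟨x', l''⟩, ⟨hx, rfl⟩, rfl⟩, rfl⟩, rfl, rfl⟩
        exact ⟨⟨(x', l''), hx, rfl, rfl⟩, rfl⟩
    rw [e2]
    exact card_image_of_injective _ (fun b b' hb => (Prod.mk.inj hb).1)
  calc S.card * U.card = ∑ l ∈ T, S.card * (fib l).card := by rw [hU1, mul_sum]
    _ ≤ ∑ l ∈ T, (∑ y ∈ S, ((fib l).image (E y)).card + ℓ * (fib l).card) := by
        refine sum_le_sum fun l _ => h (fib l) ?_
        rw [hfib]
        exact (card_le_card (filter_subset _ _)).trans hU
    _ = ∑ y ∈ S, (U.image fun p : La × L => (E y p.1, p.2)).card + ℓ * U.card := by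
        rw [sum_add_distrib, sum_comm, ← mul_sum, ← hU1]
        congr 1
        exact sum_congr rfl fun y _ => (hU2 y).symm

/-- an injective linear map from a space of smaller dimension. -/
theorem exists_inj {Y : Type*} [AddCommGroup Y] [Module (ZMod 2) Y] [Finite Y] {k : ℕ}
    (h : Module.finrank (ZMod 2) Y ≤ k) :
    ∃ g : Y →ₗ[ZMod 2] (Fin k → ZMod 2), Function.Injective g := by
  have : Module.Finite (ZMod 2) Y := Module.Finite.of_finite
  let b := (Module.finBasis (ZMod 2) Y).equivFun
  let g : (Fin (Module.finrank (ZMod 2) Y) → ZMod 2) →ₗ[ZMod 2] (Fin k → ZMod 2) :=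
    { toFun := fun f i => if hi : (i : ℕ) < Module.finrank (ZMod 2) Y then f ⟨i, hi⟩ else 0
      map_add' := by
        intro f f'; ext i
        simp only [Pi.add_apply]
        split_ifs <;> simp
      map_smul' := by
        intro c f; ext i
        simp only [Pi.smul_apply, RingHom.id_apply]
        split_ifs <;> simp }
  have hg : Function.Injective g := by
    intro f f' hff
    ext i
    have h1 := congrFun hff ⟨i, i.2.trans_le h⟩
    simpa [g] using h1
  exact ⟨g ∘ₗ b.toLinearMap, hg.comp b.injective⟩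

/-- **VLOSS package.** For every `F_2`-space `Y` of dimension `≤ d` there are `2^(2j)` linear maps
`Y → F_2^a` (`a ≥ 2w + 2j`), lossless entrywise and with labels for sets of size `≤ 2^w`, with
absolute loss `(2w+1)(d+2)(2^j)(w+1)` out of `2^(2j)` seeds; a nonzero vector is killed by at most
`d + 1` seeds. -/
theorem exists_vless (d w a j : ℕ) (hj : 1 ≤ j) (ha : 2 * w + 2 * j ≤ a) (Y : Type)
    [AddCommGroup Y] [Module (ZMod 2) Y] [Finite Y] [DecidableEq Y]
    (hY : Module.finrank (ZMod 2) Y ≤ d) :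
    ∃ E : Fin (2 ^ (2 * j)) → (Y →ₗ[ZMod 2] (Fin a → ZMod 2)),
      (∀ (S : Finset (Fin (2 ^ (2 * j)))) (J L : Type) [Fintype J] [DecidableEq L],
        Less (fun z (p : (J → Y) × L) => ((fun i => E z (p.1 i)), p.2)) S (2 ^ w)
          ((2 * w + 1) * ((d + 1) * 2 ^ j * (w + 1)))) ∧
      (∀ y : Y, y ≠ 0 → (univ.filter fun z => E z y = 0).card ≤ d + 1) := by
  classical
  let n := d / (2 * j) + 2
  let m := w / j + 1
  have h2j : 0 < 2 * j := by omega
  have hdn : d ≤ n * (2 * j) := by
    have := Nat.div_add_mod d (2 * j)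
    have h1 := Nat.mod_lt d h2j
    have h3 : n * (2 * j) = 2 * j * (d / (2 * j)) + 2 * (2 * j) := by
      simp only [n]; ring
    omega
  have hn1 : n - 1 ≤ d + 1 := by
    have : d / (2 * j) ≤ d := Nat.div_le_self _ _
    simp only [n]; omega
  have hma : m * (2 * j) ≤ a := by
    have := Nat.div_mul_le_self w j
    have h3 : m * (2 * j) = 2 * (w / j * j) + 2 * j := by simp only [m]; ring
    omega
  have hmw : m ≤ w + 1 := by
    have : w / j ≤ w := Nat.div_le_self _ _
    simp only [m]; omega
  have hpow : 2 ^ w ≤ (2 ^ j) ^ m := by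
    rw [← pow_mul]
    refine Nat.pow_le_pow_right (by norm_num) ?_
    have h1 := Nat.div_add_mod w j
    have h2 := Nat.mod_lt w (show 0 < j by omega)
    have h3 : j * m = j * (w / j) + j := by simp only [m]; ring
    omega
  obtain ⟨E, hE1, hE2⟩ := exists_condH j n m (by omega) (Nat.le_add_left 2 _)
    (Nat.le_add_left 1 _)
  obtain ⟨gin, hgin⟩ := exists_inj (Y := Y) (hY.trans hdn)
  obtain ⟨gout, hgout⟩ := exists_inj (Y := Fin (m * (2 * j)) → ZMod 2) (k := a) (by simpa using hma)
  let E' : Fin (2 ^ (2 * j)) → (Y →ₗ[ZMod 2] (Fin a → ZMod 2)) := fun z => gout ∘ₗ E z ∘ₗ gin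
  have hscal : ∀ S : Finset (Fin (2 ^ (2 * j))),
      Less (fun z y => E' z y) S (2 ^ w) ((d + 1) * 2 ^ j * (w + 1)) := by
    intro S
    have h1 := Less.comp_inj _ S _ _ (hE1 S) gin hgin
    have h2 := Less.post_inj h1 gout hgout
    refine Less.mono' h2 hpow ?_
    refine Nat.mul_le_mul (Nat.mul_le_mul hn1 ?_) hmw
    exact Nat.sub_le _ _
  refine ⟨E', fun S J L _ _ => ?_, fun y hy => ?_⟩
  · exact Less.label (Less.vec E' S w _ (hscal S) J)
  · have h1 := hE2 (gin y) (by
      intro h0
      exact hy (hgin (by rw [h0, map_zero])))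
    refine le_trans (card_le_card ?_) (h1.trans hn1)
    intro z hz
    rw [mem_filter] at hz ⊢
    refine ⟨hz.1, hgout ?_⟩
    rw [map_zero]
    exact hz.2

end Vale.Agent.P318.H986
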