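import Vale.Agent.P318.H986.VLoss
import Vale.Agent.P318.H6.Spec
import Vale.Agent.P318.H283.PDef

/-! # P318: `spec_cond : SpecCOND` (helper6's form) and `hasCond` (helper283's form) -/

namespace Vale.Agent.P318.H986

open Finset Vale.Agent.P318.Vec

/-- the numeric inequality: absolute loss versus relative loss. -/
theorem loss_le (j w d : ℕ) :
    (((2 * w + 1) * ((d + 1) * 2 ^ j * (w + 1)) : ℕ) : ℝ) ≤
      ((2 * w + 1) * ((d + 2) * (w + 1)) / 2 ^ j) * (2 ^ (2 * j) : ℕ) := by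
  have h1 : ((2 : ℝ) ^ j) ≠ 0 := by positivity
  have h2 : (((2 ^ (2 * j) : ℕ)) : ℝ) = 2 ^ j * 2 ^ j := by
    push_cast
    rw [two_mul, pow_add]
  rw [h2]
  have h3 : ((2 * w + 1) * ((d + 2) * (w + 1)) / 2 ^ j : ℝ) * (2 ^ j * 2 ^ j)
      = (2 * w + 1) * ((d + 2) * 2 ^ j * (w + 1)) := by
    field_simp
  rw [h3]
  push_cast
  have h4 : (0 : ℝ) ≤ w := by positivity
  have h5 : (0 : ℝ) ≤ (2 : ℝ) ^ j := by positivity
  have h6 : (0 : ℝ) ≤ (2 * (w : ℝ) + 1) * ((2 : ℝ) ^ j * (w + 1)) := by positivity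
  nlinarith

theorem spec_cond : H6.SpecCOND := by
  intro j w d a hj ha Y _ _ _ hY
  classical
  obtain ⟨E, hE, -⟩ := exists_vless d w a j hj ha Y hY
  refine ⟨E, fun J L _ _ _ U hU => ?_⟩
  have h1 := hE univ J L U hU
  have h2 : ((2 ^ (2 * j) : ℕ) : ℝ) * U.card ≤
      ∑ z : Fin (2 ^ (2 * j)), ((U.image fun p : (J → Y) × L => ((fun i => E z (p.1 i)), p.2)).card : ℝ)
      + (((2 * w + 1) * ((d + 1) * 2 ^ j * (w + 1)) : ℕ) : ℝ) * U.card := by
    have h3 := h1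
    rw [card_univ, Fintype.card_fin] at h3
    exact_mod_cast h3
  have h4 := mul_le_mul_of_nonneg_right (loss_le j w d) (Nat.cast_nonneg (α := ℝ) U.card)
  nlinarith

theorem hasCond (j w d a : ℕ) (hj : 1 ≤ j) (ha : 2 * w + 2 * j ≤ a) :
    H283.HasCond a (2 ^ w) d (2 ^ (2 * j)) ((2 * w + 1) * ((d + 2) * (w + 1)) / 2 ^ j) := by
  intro Y _ _ _ _ hY
  obtain ⟨E, hE, -⟩ := exists_vless d w a j hj ha Y hY
  refine ⟨E, fun J L _ _ _ _ U hU => ?_⟩
  have h1 := hE univ J L U hU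
  have h2 : ((univ : Finset (Fin (2 ^ (2 * j)))).card : ℝ) * U.card ≤
      ∑ z : Fin (2 ^ (2 * j)), ((U.image fun p : (J → Y) × L => ((fun i => E z (p.1 i)), p.2)).card : ℝ)
      + (((2 * w + 1) * ((d + 1) * 2 ^ j * (w + 1)) : ℕ) : ℝ) * U.card := by
    exact_mod_cast h1
  have h3 : ((univ : Finset (Fin (2 ^ (2 * j)))).card : ℝ) = ((2 ^ (2 * j) : ℕ) : ℝ) := by
    rw [card_univ, Fintype.card_fin]
  have h4 := mul_le_mul_of_nonneg_right (loss_le j w d) (Nat.cast_nonneg (α := ℝ) U.card)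
  rw [← h3] at h4
  nlinarith

end Vale.Agent.P318.H986
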