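import Vale.Agent.P318.H986.Sample

/-! # P318, module GRIDS (section 8)

Seeds `F` are divided in blocks: `σ : B × D ≃ F` (block, position in the block). A grid is a
choice `g : V → B` of a block at every node; its points are `pt σ g d`, `d : V → D`.

* `exists_grids`: `N₀` grids such that the average bad probability is `≤ 4p` for every `δ`;
* `exists_grids_run`: the same for collisions of the product of all node operators;
* `hyb`: hybrids between two grids, changing one node at a time;
* `exists_global`: the global objects of all hybrids coincide. -/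

namespace Vale.Agent.P318.H986

open Finset

variable {V F B D : Type*}

/-- the point of the grid `g` with positions `d`. -/
def pt (σ : B × D ≃ F) (g : V → B) (d : V → D) : V → F := fun v => σ (g v, d v)

/-- all seed vectors = (grid, point of the grid). -/
def gridEquiv (σ : B × D ≃ F) : (V → B) × (V → D) ≃ (V → F) where
  toFun gd := pt σ gd.1 gd.2
  invFun y := (fun v => (σ.symm (y v)).1, fun v => (σ.symm (y v)).2)
  left_inv gd := by
    ext v
    · simp [pt]
    · simp [pt]
  right_inv y := by
    ext v; simp [pt]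

section
variable [Fintype V] [Fintype F] [Fintype B] [Fintype D] [DecidableEq V]

theorem card_eq (σ : B × D ≃ F) : Fintype.card (V → F) = Fintype.card (V → B) * Fintype.card (V → D) := by
  rw [← Fintype.card_prod]
  exact (Fintype.card_congr (gridEquiv σ)).symm

theorem sum_grid (σ : B × D ≃ F) (P : (V → F) → Prop) [DecidablePred P] :
    ∑ g : V → B, (univ.filter fun d : V → D => P (pt σ g d)).card
      = (univ.filter fun y : V → F => P y).card := by
  classical
  simp only [card_filter]
  rw [← Fintype.sum_prod_type' (f := fun g d => if P (pt σ g d) then 1 else 0)]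
  exact Fintype.sum_equiv (gridEquiv σ) _ _ fun gd => rfl

/-- **Random grids.** -/
theorem exists_grids {Δ : Type*} [Fintype Δ] [Nonempty B] [Nonempty D] (σ : B × D ≃ F)
    (bad : Δ → (V → F) → Prop) [∀ δ, DecidablePred (bad δ)] (p : ℝ) (hp : 0 ≤ p)
    (hbad : ∀ δ, ((univ.filter fun y => bad δ y).card : ℝ) ≤ p * Fintype.card (V → F))
    (N₀ : ℕ) (hN : (Fintype.card Δ : ℝ) ≤ 2 ^ (2 * p * N₀)) :
    ∃ G : Fin N₀ → (V → B), ∀ δ,
      ((∑ i, (univ.filter fun d : V → D => bad δ (pt σ (G i) d)).card : ℕ) : ℝ)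
        ≤ 4 * p * N₀ * Fintype.card (V → D) := by
  classical
  have hD : (0 : ℝ) < Fintype.card (V → D) := by exact_mod_cast Fintype.card_pos
  obtain ⟨G, hG⟩ := exists_sample (Ω := V → B) (Δ := Δ)
    (fun δ g => ((univ.filter fun d : V → D => bad δ (pt σ g d)).card : ℝ) / Fintype.card (V → D))
    (fun δ g => by positivity)
    (fun δ g => by
      rw [div_le_one hD]
      exact_mod_cast card_le_univ _)
    p hp (fun δ => by
      rw [← sum_div, div_le_iff₀ hD, mul_assoc]
      have h1 := sum_grid σ (bad δ) (V := V)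
      have h2 := hbad δ
      rw [← h1, card_eq σ] at h2
      push_cast at h2 ⊢
      exact h2) N₀ hN
  refine ⟨G, fun δ => ?_⟩
  have := hG δ
  rw [← sum_div, div_le_iff₀ hD] at this
  push_cast
  exact this

/-- **Random grids separate points**: `c` = maximal number of seeds of one node killing a given
nonzero element, `l` = list of the nodes, `p = |l| c / q`. -/
theorem exists_grids_run {X : Type*} [Zero X] [Fintype X] [DecidableEq X] [Nonempty B] [Nonempty D]
    (σ : B × D ≃ F) (op : V → F → X → X) (c : ℕ)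
    (hc : ∀ v x, x ≠ 0 → (univ.filter fun a : F => op v a x = 0).card ≤ c)
    (l : List V) (hl : l.Nodup) (p : ℝ) (hp : (l.length * c : ℝ) ≤ p * Fintype.card F)
    (N₀ : ℕ) (hN : (Fintype.card X : ℝ) ≤ 2 ^ (2 * p * N₀)) :
    ∃ G : Fin N₀ → (V → B), ∀ x : X, x ≠ 0 →
      ((∑ i, (univ.filter fun d : V → D => run op l (pt σ (G i) d) x = 0).card : ℕ) : ℝ)
        ≤ 4 * p * N₀ * Fintype.card (V → D) := by
  classical
  have hFe : Nonempty F := ⟨σ (Classical.arbitrary _)⟩
  have hF : (0 : ℝ) < Fintype.card F := by exact_mod_cast Fintype.card_pos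
  have hp0 : 0 ≤ p := by
    by_contra h
    have : p * Fintype.card F < 0 := mul_neg_of_neg_of_pos (by linarith) hF
    have h2 : (0 : ℝ) ≤ l.length * c := by positivity
    linarith
  obtain ⟨G, hG⟩ := exists_grids (Δ := {x : X // x ≠ 0}) σ (fun x y => run op l y x.1 = 0) p hp0
    (fun x => by
      have h := collision op c hc l hl x.1 x.2
      have h' : ((univ.filter fun y : V → F => run op l y x.1 = 0).card : ℝ) * Fintype.card F
          ≤ l.length * c * Fintype.card (V → F) := by exact_mod_cast h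
      have h2 : (l.length * c : ℝ) * Fintype.card (V → F)
          ≤ p * Fintype.card F * Fintype.card (V → F) :=
        mul_le_mul_of_nonneg_right hp (by positivity)
      have h3 : ((univ.filter fun y : V → F => run op l y x.1 = 0).card : ℝ) * Fintype.card F
          ≤ (p * Fintype.card (V → F)) * Fintype.card F := by
        calc _ ≤ _ := h'
          _ ≤ _ := h2
          _ = _ := by ring
      exact le_of_mul_le_mul_right h3 hF) N₀ (by
      refine le_trans ?_ hN
      exact_mod_cast Fintype.card_subtype_le _)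
  exact ⟨G, fun x hx => hG ⟨x, hx⟩⟩

end

section Hybrid

variable {M : ℕ}

/-- the hybrid of `g` and `g₀`: the first `j` nodes from `g`. -/
def hyb (g g₀ : Fin M → B) (j : ℕ) : Fin M → B := fun v => if (v : ℕ) < j then g v else g₀ v

theorem hyb_zero (g g₀ : Fin M → B) : hyb g g₀ 0 = g₀ := by ext v; simp [hyb]

theorem hyb_last (g g₀ : Fin M → B) : hyb g g₀ M = g := by ext v; simp [hyb]

theorem hyb_succ (g g₀ : Fin M → B) (j : ℕ) (hj : j < M) (v : Fin M) (hv : v ≠ ⟨j, hj⟩) :
    hyb g g₀ (j + 1) v = hyb g g₀ j v := by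
  have : (v : ℕ) ≠ j := fun h => hv (Fin.ext h)
  unfold hyb
  by_cases h : (v : ℕ) < j
  · rw [if_pos h, if_pos (by omega)]
  · rw [if_neg h, if_neg (by omega)]

variable {Me : Type*} {ℛ : Type*}

/-- `U` is a global object for the local data `μ` on the grid `g`. Here `ℛ` indexes the
(admissible) up-closed sets and `psh R y` is the push-forward along the view `(R, y)`. -/
def Glob (σ : B × D ≃ F) (psh : ℛ → (Fin M → F) → Me → Me) (μ : ℛ → (Fin M → F) → Me)
    (g : Fin M → B) (U : Me) : Prop :=
  ∀ R d, psh R (pt σ g d) U = μ R (pt σ g d)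

/-- Two grids which differ at one node have the same global objects. -/
theorem glob_eq (σ : B × D ≃ F) (psh : ℛ → (Fin M → F) → Me → Me)
    (μ : ℛ → (Fin M → F) → Me) (mem : ℛ → Fin M → Prop)
    (hpsh : ∀ R y y', (∀ v, ¬ mem R v → y v = y' v) → psh R y = psh R y')
    (hμ : ∀ R y y', (∀ v, ¬ mem R v → y v = y' v) → μ R y = μ R y')
    (small : Me → Prop)
    (huniq : ∀ g R U U', small U → small U' →
      (∀ d, psh R (pt σ g d) U = psh R (pt σ g d) U') → U = U')
    (g g' : Fin M → B) (v : Fin M) (hgg : ∀ w, w ≠ v → g w = g' w) (R : ℛ) (hR : mem R v)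
    (U U' : Me) (hU : small U) (hU' : small U') (hg : Glob σ psh μ g U)
    (hg' : Glob σ psh μ g' U') : U = U' := by
  refine huniq g R U U' hU hU' fun d => ?_
  have hoff : ∀ w, ¬ mem R w → pt σ g d w = pt σ g' d w := by
    intro w hw
    have : w ≠ v := by rintro rfl; exact hw hR
    simp [pt, hgg w this]
  rw [hg R d, hμ R _ _ hoff, ← hg' R d, ← hpsh R _ _ hoff]

/-- **One global object for all hybrids.** -/
theorem exists_global (σ : B × D ≃ F) (psh : ℛ → (Fin M → F) → Me → Me)
    (μ : ℛ → (Fin M → F) → Me) (mem : ℛ → Fin M → Prop)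
    (hpsh : ∀ R y y', (∀ v, ¬ mem R v → y v = y' v) → psh R y = psh R y')
    (hμ : ∀ R y y', (∀ v, ¬ mem R v → y v = y' v) → μ R y = μ R y')
    (small : Me → Prop)
    (huniq : ∀ g R U U', small U → small U' →
      (∀ d, psh R (pt σ g d) U = psh R (pt σ g d) U') → U = U')
    (hcov : ∀ v, ∃ R, mem R v)
    {N : ℕ} (G : Fin N → (Fin M → B)) (g₀ : Fin M → B)
    (hex : ∀ g, (∃ i j, g = hyb (G i) g₀ j) ∨ g = g₀ → ∃ U, small U ∧ Glob σ psh μ g U) :
    ∃ U, small U ∧ Glob σ psh μ g₀ U ∧ ∀ i, ∀ j ≤ M, Glob σ psh μ (hyb (G i) g₀ j) U := by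
  obtain ⟨U, hU, hg₀⟩ := hex g₀ (Or.inr rfl)
  refine ⟨U, hU, hg₀, fun i j => ?_⟩
  induction j with
  | zero => intro _; rw [hyb_zero]; exact hg₀
  | succ j ih =>
    intro hj
    obtain ⟨U', hU', hg'⟩ := hex (hyb (G i) g₀ (j + 1)) (Or.inl ⟨i, j + 1, rfl⟩)
    obtain ⟨R, hR⟩ := hcov ⟨j, by omega⟩
    have : U' = U := glob_eq σ psh μ mem hpsh hμ small huniq _ _ ⟨j, by omega⟩
      (fun w hw => hyb_succ (G i) g₀ j (by omega) w hw) R hR U' U hU' hU hg' (ih (by omega))
    rw [← this]; exact hg'

end Hybrid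

end Vale.Agent.P318.H986
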