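import Vale.Agent.P318.H653.NodeInst

/-! # P318, section 8: one global measure for all grids of a connected family

`spec_global : SpecNODE → SpecLOW → SpecGLOBAL`. -/

namespace Vale.Agent.P318.H986

open Finset
open Vale.Agent.P318.H937
open Vale.Agent.P318

section Aux

variable {X : Type} [AddCommGroup X] [Module (ZMod 2) X] {M Bn Dn : ℕ}

/-- the points of the grid `g`. -/
def gridS (Dn : ℕ) (g : Fin M → Fin Bn) (v : Fin M) : Finset (Fin Bn × Fin Dn) :=
  {g v} ×ˢ univ

theorem mem_gridS {g : Fin M → Fin Bn} {v : Fin M} {a : Fin Bn × Fin Dn} :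
    a ∈ gridS Dn g v ↔ a.1 = g v := by
  rw [gridS, mem_product, mem_singleton]
  exact ⟨fun h => h.1, fun h => ⟨h, mem_univ _⟩⟩

theorem card_gridS (g : Fin M → Fin Bn) (v : Fin M) : (gridS Dn g v).card = Dn := by
  simp [gridS]

theorem grid_eq {g : Fin M → Fin Bn} {y : Fin M → Fin Bn × Fin Dn} (h : ∀ v, y v ∈ gridS Dn g v) :
    (fun v => (y v).1) = g := by
  funext v
  exact mem_gridS.mp (h v)

/-- the up-closed set generated by one node. -/
def hull (N : NodeSys X M (Fin Bn × Fin Dn)) (v : Fin M) : Finset (Fin M) := insert v (N.anc v)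

theorem hull_up (N : NodeSys X M (Fin Bn × Fin Dn)) (v : Fin M) : N.Up (hull N v) := by
  intro w hw u hu
  simp only [hull, mem_insert] at hw ⊢
  rcases hw with rfl | hw
  · exact Or.inr hu
  · exact Or.inr (N.anc_trans v w u hw hu)

theorem hull_minl (N : NodeSys X M (Fin Bn × Fin Dn)) (v : Fin M) :
    (N.minl (hull N v)).card ≤ 2 := by
  have h : N.minl (hull N v) ⊆ {v} := by
    intro w hw
    simp only [NodeSys.minl, mem_filter] at hw
    simp only [mem_singleton]
    obtain ⟨hw1, hw2⟩ := hw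
    simp only [hull, mem_insert] at hw1
    rcases hw1 with h1 | h1
    · exact h1
    · exact absurd h1 (hw2 v (by simp [hull]))
  have := card_le_card h
  simp at this
  omega

end Aux

theorem spec_global (hNODE : SpecNODE) (hLOW : SpecLOW) : SpecGLOBAL := by
  intro X _ _ _ _ M n m' dT Bn Dn W N hN hD hnD hm' hW 𝒢 h𝒢 hconn μ hsz hindep hcons
  -- the measure of one grid
  have hone : ∀ g ∈ 𝒢, ∃ U : X → ZMod 2, sz U ≤ 2 * W ∧
      ∀ R y, N.Up R → (N.minl R).card ≤ 2 → (∀ v, y v ∈ gridS Dn g v) →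
        push (N.view R y) U = μ (R, y) := by
    intro g hg
    have hview : ∀ R y, N.Up R → (N.minl R).card ≤ 2 → (∀ v, y v ∈ gridS Dn g v) →
        IsView N 𝒢 (R, y) := by
      intro R y hR hR2 hy
      refine ⟨hR, hR2, ?_⟩
      rw [grid_eq hy]; exact hg
    exact hNODE X M n m' dT Dn W (Fin Bn × Fin Dn) N hN (gridS Dn g) (card_gridS g) hD hnD hm' hW
      (fun R y => μ (R, y))
      (fun R y hR hR2 hy => hsz _ (hview R y hR hR2 hy))
      (fun R y y' hR hR2 hy hy' h => hindep R y y' (hview R y hR hR2 hy) (hview R y' hR hR2 hy') h)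
      (fun R y v hR hR2 hy hv => hcons R y v (hview R y hR hR2 hy) hv)
  have hDn : 0 < Dn := by omega
  -- uniqueness on one grid
  have huniq : ∀ (g : Fin M → Fin Bn) (R : Finset (Fin M)) (D : X → ZMod 2), sz D ≤ 2 ^ m' →
      (∀ y, (∀ v, y v ∈ gridS Dn g v) → push (N.view R y) D = 0) → D = 0 := by
    intro g R D hDsz h
    have h1 := hLOW X M n m' dT Dn (Fin Bn × Fin Dn) N hN (gridS Dn g) (card_gridS g) hDn R D hDsz
    have h2 : ∑ y ∈ Fintype.piFinset (gridS Dn g), (sz (push (N.view R y) D) : ℝ) = 0 := by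
      refine sum_eq_zero fun y hy => ?_
      rw [Fintype.mem_piFinset] at hy
      rw [h y hy]
      simp [sz]
    rw [h2] at h1
    have hDn' : (0 : ℝ) < Dn := by exact_mod_cast hDn
    have hbig : (2 * M * ((2 * m' + 1) * (n * m')) : ℝ) < Dn := by
      have h3 : 300 * (n + 1) * (M + 1) * ((2 * m' + 1) * (n * m')) < Dn := hD
      have h4 : 2 * M * ((2 * m' + 1) * (n * m')) ≤
          300 * (n + 1) * (M + 1) * ((2 * m' + 1) * (n * m')) := by
        refine Nat.mul_le_mul_right _ ?_
        nlinarith [Nat.zero_le (n * M), Nat.zero_le n, Nat.zero_le M]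
      exact_mod_cast lt_of_le_of_lt h4 h3
    have h5 : (0 : ℝ) < 1 - 2 * M * ((2 * m' + 1) * (n * m')) / Dn := by
      rw [sub_pos, div_lt_one hDn']
      exact hbig
    have h6 : (0 : ℝ) < (1 - 2 * M * ((2 * m' + 1) * (n * m')) / Dn) * (Dn : ℝ) ^ M := by
      positivity
    have h7 : (sz D : ℝ) ≤ 0 := by
      by_contra hcon
      rw [not_le] at hcon
      have := mul_pos h6 hcon
      linarith
    have h8 : sz D = 0 := by
      have : (0 : ℝ) ≤ sz D := by positivity
      exact_mod_cast le_antisymm h7 this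
    funext x
    by_contra hx
    have h9 : x ∈ univ.filter fun x => D x ≠ 0 := by simpa using hx
    rw [sz, card_eq_zero] at h8
    rw [h8] at h9
    exact absurd h9 (notMem_empty x)
  -- two grids which differ at one node have the same measure
  have hstep : ∀ g ∈ 𝒢, ∀ g' ∈ 𝒢, (∃ v, ∀ w, w ≠ v → g w = g' w) → ∀ U U' : X → ZMod 2,
      sz U ≤ 2 * W → sz U' ≤ 2 * W →
      (∀ R y, N.Up R → (N.minl R).card ≤ 2 → (∀ v, y v ∈ gridS Dn g v) →
        push (N.view R y) U = μ (R, y)) →
      (∀ R y, N.Up R → (N.minl R).card ≤ 2 → (∀ v, y v ∈ gridS Dn g' v) →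
        push (N.view R y) U' = μ (R, y)) → U = U' := by
    rintro g hg g' hg' ⟨v, hv⟩ U U' hU hU' h h'
    have hsub : sz (U - U') ≤ 2 ^ m' := (H653.sz_sub_le U U').trans (by omega)
    have := huniq g (hull N v) (U - U') hsub ?_
    · exact sub_eq_zero.mp this
    · intro y hy
      let y' : Fin M → Fin Bn × Fin Dn := Function.update y v (g' v, (y v).2)
      have hoff : ∀ w, w ∉ hull N v → y w = y' w := by
        intro w hw
        have : w ≠ v := by rintro rfl; exact hw (by simp [hull])
        simp [y', this]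
      have hy' : ∀ w, y' w ∈ gridS Dn g' w := by
        intro w
        rw [mem_gridS]
        by_cases hw : w = v
        · subst hw; simp [y']
        · have : y' w = y w := by simp [y', hw]
          rw [this, mem_gridS.mp (hy w), hv w hw]
      have e1 : push (N.view (hull N v) y) U = μ (hull N v, y) :=
        h _ _ (hull_up N v) (hull_minl N v) hy
      have e2 : push (N.view (hull N v) y') U' = μ (hull N v, y') :=
        h' _ _ (hull_up N v) (hull_minl N v) hy'
      have e3 : μ (hull N v, y) = μ (hull N v, y') :=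
        hindep _ _ _ ⟨hull_up N v, hull_minl N v, by rw [grid_eq hy]; exact hg⟩
          ⟨hull_up N v, hull_minl N v, by rw [grid_eq hy']; exact hg'⟩ hoff
      have e4 : N.view (hull N v) y = N.view (hull N v) y' := H653.view_congr (N := N) hoff
      have e5 : push (N.view (hull N v) y) (U - U')
          = push (N.view (hull N v) y) U - push (N.view (hull N v) y) U' :=
        map_sub (H653.pushHom (N.view (hull N v) y)) U U'
      rw [e5, e1, e3, ← e2, e4, sub_self]
  -- all grids
  obtain ⟨g₀, hg₀⟩ := h𝒢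
  obtain ⟨U, hU, hU1⟩ := hone g₀ hg₀
  have hall : ∀ g, Relation.ReflTransGen
      (fun a b => b ∈ 𝒢 ∧ ∃ v, ∀ w, w ≠ v → a w = b w) g₀ g →
      g ∈ 𝒢 ∧ ∀ R y, N.Up R → (N.minl R).card ≤ 2 → (∀ v, y v ∈ gridS Dn g v) →
        push (N.view R y) U = μ (R, y) := by
    intro g hrel
    induction hrel with
    | refl => exact ⟨hg₀, hU1⟩
    | tail _ hstep' ih =>
      obtain ⟨hb, hdiff⟩ := hstep'
      refine ⟨hb, ?_⟩
      obtain ⟨U', hU', hU1'⟩ := hone _ hb
      have := hstep _ ih.1 _ hb hdiff U U' hU hU' ih.2 hU1'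
      rw [this]; exact hU1'
  refine ⟨U, hU, ?_⟩
  rintro ⟨R, y⟩ ⟨hR, hR2, hy⟩
  exact (hall _ (hconn g₀ hg₀ _ hy)).2 R y hR hR2 (fun v => mem_gridS.mpr rfl)

end Vale.Agent.P318.H986
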