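import Mathlib

/-! # GUV condenser with `h = 2` (scalar version)

`F` a finite field, `E` monic irreducible over `F` of degree `n ≥ 2`, `f ∈ F[X]/E`.
`guv E hE m y f = (f(y), f²(y), f⁴(y), …, f^{2^{m-1}}(y))`, where `f^{2^i}` is computed in
`F[X]/E` and represented by a polynomial of degree `< n`.

Main result `guv_expand`: if `U ⊂ F[X]/E`, `|U| ≤ 2^m`, `S ⊂ F`, then
`∑_{y ∈ S} |guv_y(U)| ≥ (|S| - (n-1) m) |U|`. -/

namespace Vale.Agent.P318.H986

open Polynomial Finset

section Digits

/-- the binary digit sum. -/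
theorem sum_digit (j m : ℕ) : ∑ i ∈ range m, (j / 2 ^ i % 2) * 2 ^ i = j % 2 ^ m := by
  induction m with
  | zero => simp [Nat.mod_one]
  | succ m ih => rw [sum_range_succ, ih, Nat.mod_pow_succ]; ring

theorem prod_digit {R : Type*} [CommMonoid R] (f : R) (j m : ℕ) (hj : j < 2 ^ m) :
    ∏ i ∈ range m, (f ^ 2 ^ i) ^ (j / 2 ^ i % 2) = f ^ j := by
  have : ∏ i ∈ range m, (f ^ 2 ^ i) ^ (j / 2 ^ i % 2)
      = f ^ (∑ i ∈ range m, (j / 2 ^ i % 2) * 2 ^ i) := by
    rw [← prod_pow_eq_pow_sum]
    refine prod_congr rfl fun i _ => ?_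
    rw [← pow_mul, mul_comm]
  rw [this, sum_digit, Nat.mod_eq_of_lt hj]

end Digits

variable {F : Type*} [Field F]

/-- the representative of degree `< n`. -/
noncomputable def rep (E : F[X]) (hE : E.Monic) : AdjoinRoot E →ₗ[F] F[X] :=
  AdjoinRoot.modByMonicHom hE

theorem mk_rep (E : F[X]) (hE : E.Monic) (f : AdjoinRoot E) :
    AdjoinRoot.mk E (rep E hE f) = f := AdjoinRoot.mk_leftInverse hE f

theorem natDegree_rep (E : F[X]) (hE : E.Monic) (hn : 0 < E.natDegree) (f : AdjoinRoot E) :
    (rep E hE f).natDegree ≤ E.natDegree - 1 := by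
  induction f using AdjoinRoot.induction_on with
  | ih p =>
    have h : rep E hE (AdjoinRoot.mk E p) = p %ₘ E := AdjoinRoot.modByMonicHom_mk hE p
    rw [h]
    have := natDegree_modByMonic_lt p hE (by
      intro h1; rw [h1] at hn; simp at hn)
    omega

/-- the condenser. -/
noncomputable def guv (E : F[X]) (hE : E.Monic) (m : ℕ) (y : F) (f : AdjoinRoot E) :
    Fin m → F := fun i => (rep E hE (f ^ 2 ^ (i : ℕ))).eval y

/-- interpolation: a nonzero family of polynomials of degree `< A` killing `T`. -/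
theorem exists_interp (m K A : ℕ) (S : Finset F) (T : F → Finset (Fin m → F))
    (hT : ∑ y ∈ S, (T y).card < A * K) :
    ∃ p : Fin K → F[X], p ≠ 0 ∧ (∀ j, (p j).degree < A) ∧
      ∀ y ∈ S, ∀ z ∈ T y,
        ∑ j : Fin K, (p j).eval y * ∏ i : Fin m, z i ^ ((j : ℕ) / 2 ^ (i:ℕ) % 2) = 0 := by
  classical
  let D := S.sigma T
  let poly : (Fin A × Fin K → F) → Fin K → F[X] :=
    fun c j => ∑ a : Fin A, C (c (a, j)) * X ^ (a : ℕ)
  let ev : (Fin A × Fin K → F) →ₗ[F] (D → F) :=
    { toFun := fun c d => ∑ j : Fin K, (∑ a : Fin A, c (a, j) * d.1.1 ^ (a : ℕ)) *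
          ∏ i : Fin m, d.1.2 i ^ ((j : ℕ) / 2 ^ (i:ℕ) % 2)
      map_add' := by
        intro c c'; ext d
        simp only [Pi.add_apply, add_mul, sum_add_distrib]
      map_smul' := by
        intro r c; ext d
        simp only [Pi.smul_apply, smul_eq_mul, RingHom.id_apply, mul_sum, sum_mul, mul_assoc] }
  have hdim : Module.finrank F (D → F) < Module.finrank F (Fin A × Fin K → F) := by
    simp only [Module.finrank_fintype_fun_eq_card, Fintype.card_coe, Fintype.card_prod,
      Fintype.card_fin]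
    simpa [D, card_sigma] using hT
  have hker := LinearMap.ker_ne_bot_of_finrank_lt (f := ev) hdim
  obtain ⟨c, hc, hc0⟩ := Submodule.exists_mem_ne_zero_of_ne_bot hker
  refine ⟨poly c, ?_, ?_, ?_⟩
  · intro h
    apply hc0
    ext ⟨a, j⟩
    have h1 : (poly c j).coeff (a : ℕ) = 0 := by rw [h]; simp
    simp only [poly, finsetSum_coeff, coeff_C_mul, coeff_X_pow] at h1
    rw [Finset.sum_eq_single a] at h1
    · simpa using h1
    · intro b _ hb
      have : (a : ℕ) ≠ b := fun h => hb (Fin.ext h.symm)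
      simp [this]
    · simp
  · intro j
    exact degree_sum_fin_lt (fun a => c (a, j))
  · intro y hy z hz
    have h1 := congrFun (LinearMap.mem_ker.mp hc) ⟨⟨y, z⟩, by simp [D, hy, hz]⟩
    simp only [ev, LinearMap.coe_mk, AddHom.coe_mk, Pi.zero_apply] at h1
    simp only [poly, eval_finsetSum, eval_mul, eval_C, eval_pow, eval_X]
    exact h1

/-- interpolation modulo `E`: one can take the family not divisible by `E`. -/
theorem exists_interp' (E : F[X]) (hn : 0 < E.natDegree)
    (hroot : ∀ y : F, E.eval y ≠ 0) (m K A : ℕ) (S : Finset F) (T : F → Finset (Fin m → F))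
    (hT : ∑ y ∈ S, (T y).card < A * K) :
    ∃ p : Fin K → F[X], (∃ j, ¬ E ∣ p j) ∧ (∀ j, (p j).degree < A) ∧
      ∀ y ∈ S, ∀ z ∈ T y,
        ∑ j : Fin K, (p j).eval y * ∏ i : Fin m, z i ^ ((j : ℕ) / 2 ^ (i:ℕ) % 2) = 0 := by
  classical
  have hex : ∃ B, B ≤ A ∧ ∃ p : Fin K → F[X], p ≠ 0 ∧ (∀ j, (p j).degree < B) ∧
      ∀ y ∈ S, ∀ z ∈ T y,
        ∑ j : Fin K, (p j).eval y * ∏ i : Fin m, z i ^ ((j : ℕ) / 2 ^ (i:ℕ) % 2) = 0 :=
    ⟨A, le_rfl, exists_interp m K A S T hT⟩
  obtain ⟨hBA, p, hp0, hpd, hpT⟩ := Nat.find_spec hex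
  refine ⟨p, ?_, fun j => lt_of_lt_of_le (hpd j) (by exact_mod_cast hBA), hpT⟩
  by_contra hcon
  have hcon' : ∀ j, E ∣ p j := by
    intro j; by_contra h; exact hcon ⟨j, h⟩
  choose r hr using hcon'
  have hE0 : E ≠ 0 := by rintro rfl; simp at hn
  have hB : 0 < Nat.find hex := by
    rcases Nat.eq_zero_or_pos (Nat.find hex) with h | h
    · exfalso
      apply hp0
      ext1 j
      have h1 := hpd j
      rw [h] at h1
      by_contra h0
      rw [degree_eq_natDegree h0] at h1
      have h3 : (p j).natDegree < 0 := by exact_mod_cast h1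
      exact Nat.not_lt_zero _ h3
    · exact h
  have hlt : Nat.find hex - 1 < Nat.find hex := Nat.sub_lt hB one_pos
  refine Nat.find_min hex hlt ⟨by omega, r, ?_, ?_, ?_⟩
  · intro h0
    apply hp0
    ext1 j
    rw [hr j, h0]; simp
  · intro j
    by_cases h0 : r j = 0
    · rw [h0, degree_zero]; exact WithBot.bot_lt_coe _
    · have h1 := hpd j
      rw [hr j, degree_mul, degree_eq_natDegree hE0, degree_eq_natDegree h0] at h1
      rw [degree_eq_natDegree h0]
      have h2 : E.natDegree + (r j).natDegree < Nat.find hex := by exact_mod_cast h1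
      have h3 : (r j).natDegree < Nat.find hex - 1 := by omega
      exact_mod_cast h3
  · intro y hy z hz
    have h1 := hpT y hy z hz
    have h2 : E.eval y * ∑ j : Fin K, (r j).eval y * ∏ i : Fin m, z i ^ ((j : ℕ) / 2 ^ (i:ℕ) % 2)
        = 0 := by
      rw [mul_sum, ← h1]
      refine sum_congr rfl fun j _ => ?_
      rw [hr j, eval_mul]; ring
    exact (mul_eq_zero.mp h2).resolve_left (hroot y)

/-- list size bound. -/
theorem guv_list (E : F[X]) (hE : E.Monic) (hirr : Irreducible E) (hn : 2 ≤ E.natDegree)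
    (m K A : ℕ) (hK : K ≤ 2 ^ m) (S : Finset F) (hA : A + (E.natDegree - 1) * m ≤ S.card)
    (T : F → Finset (Fin m → F)) (hT : ∑ y ∈ S, (T y).card < A * K)
    (U : Finset (AdjoinRoot E)) (hU : ∀ f ∈ U, ∀ y ∈ S, guv E hE m y f ∈ T y) :
    U.card < K := by
  classical
  have : Fact (Irreducible E) := ⟨hirr⟩
  have hroot : ∀ y : F, E.eval y ≠ 0 := by
    intro y hy
    have h1 : E.degree = 1 := degree_eq_one_of_irreducible_of_root hirr hy
    have h2 : E.natDegree = 1 := natDegree_eq_of_degree_eq_some h1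
    omega
  obtain ⟨p, ⟨j₀, hj₀⟩, hpd, hpT⟩ := exists_interp' E (by omega) hroot m K A S T hT
  have hApos : 0 < A := by
    rcases Nat.eq_zero_or_pos A with h | h
    · rw [h] at hT; simp at hT
    · exact h
  -- the polynomial of which all elements of `U` are roots
  let P : (AdjoinRoot E)[X] := ∑ j : Fin K, C (AdjoinRoot.mk E (p j)) * X ^ (j : ℕ)
  have hP0 : P ≠ 0 := by
    intro h
    have h1 : P.coeff (j₀ : ℕ) = 0 := by rw [h]; simp
    simp only [P, finsetSum_coeff, coeff_C_mul, coeff_X_pow] at h1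
    rw [Finset.sum_eq_single j₀] at h1
    · simp at h1
      exact hj₀ h1
    · intro b _ hb
      have : (j₀ : ℕ) ≠ b := fun h => hb (Fin.ext h.symm)
      simp [this]
    · simp
  have hPd : P.degree < K := degree_sum_fin_lt (fun j => AdjoinRoot.mk E (p j))
  have hroots : ∀ f ∈ U, P.eval f = 0 := by
    intro f hf
    let R : F[X] := ∑ j : Fin K, p j * ∏ i : Fin m, (rep E hE (f ^ 2 ^ (i : ℕ))) ^ ((j : ℕ) / 2 ^ (i:ℕ) % 2)
    have hRdeg : R.natDegree < S.card := by
      have h1 : R.natDegree ≤ (A - 1) + (E.natDegree - 1) * m := by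
        refine natDegree_sum_le_of_forall_le _ _ ?_
        intro j _
        refine natDegree_mul_le.trans (add_le_add ?_ ?_)
        · have := hpd j
          by_cases h0 : p j = 0
          · rw [h0]; simp
          · rw [degree_eq_natDegree h0] at this
            have : (p j).natDegree < A := by exact_mod_cast this
            omega
        · refine (natDegree_prod_le _ _).trans ?_
          calc ∑ i : Fin m, ((rep E hE (f ^ 2 ^ (i : ℕ))) ^ ((j : ℕ) / 2 ^ (i:ℕ) % 2)).natDegree
              ≤ ∑ _i : Fin m, (E.natDegree - 1) := by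
                refine sum_le_sum fun i _ => ?_
                refine natDegree_pow_le.trans ?_
                have h2 : (j : ℕ) / 2 ^ (i:ℕ) % 2 ≤ 1 := by omega
                calc (j : ℕ) / 2 ^ (i:ℕ) % 2 * (rep E hE (f ^ 2 ^ (i : ℕ))).natDegree
                    ≤ 1 * (E.natDegree - 1) :=
                      Nat.mul_le_mul h2 (natDegree_rep E hE (by omega) _)
                  _ = _ := one_mul _
            _ = (E.natDegree - 1) * m := by simp [mul_comm]
      omega
    have hR0 : R = 0 := by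
      refine eq_zero_of_natDegree_lt_card_of_eval_eq_zero' R S ?_ hRdeg
      intro y hy
      have h1 := hpT y hy _ (hU f hf y hy)
      simp only [R, eval_finsetSum, eval_mul, eval_prod, eval_pow]
      exact h1
    have h2 : AdjoinRoot.mk E R = 0 := by rw [hR0, map_zero]
    simp only [R, map_sum, map_mul, map_prod, map_pow, mk_rep] at h2
    simp only [P, eval_finsetSum, eval_mul, eval_C, eval_pow, eval_X]
    rw [← h2]
    refine sum_congr rfl fun j _ => ?_
    congr 1
    rw [← prod_digit f (j : ℕ) m (lt_of_lt_of_le j.2 hK)]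
    exact (Fin.prod_univ_eq_prod_range (fun i => (f ^ 2 ^ i) ^ ((j : ℕ) / 2 ^ i % 2)) m).symm
  by_contra hcon
  rw [not_lt] at hcon
  apply hP0
  have hnat : P.natDegree < U.card := by
    have h3 : P.natDegree < K := by
      rw [degree_eq_natDegree hP0] at hPd
      exact_mod_cast hPd
    omega
  exact eq_zero_of_natDegree_lt_card_of_eval_eq_zero' P U hroots hnat

/-- **GUV, `h = 2`**: expansion of sets of size `≤ 2^m`. -/
theorem guv_expand [DecidableEq F] (E : F[X]) (hE : E.Monic) (hirr : Irreducible E)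
    (hn : 2 ≤ E.natDegree) (m : ℕ) (S : Finset F) (U : Finset (AdjoinRoot E))
    (hU : U.card ≤ 2 ^ m) :
    S.card * U.card ≤ ∑ y ∈ S, (U.image (guv E hE m y)).card + (E.natDegree - 1) * m * U.card := by
  classical
  by_contra hcon
  rw [not_le] at hcon
  have hpos : (E.natDegree - 1) * m < S.card := by
    by_contra h
    rw [not_lt] at h
    have := Nat.mul_le_mul_right U.card h
    omega
  have := guv_list E hE hirr hn m U.card (S.card - (E.natDegree - 1) * m) hU S (by omega)
    (fun y => U.image (guv E hE m y)) (by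
      rw [Nat.sub_mul]
      omega) U (by
      intro f hf y _
      exact mem_image_of_mem _ hf)
  exact lt_irrefl _ this

/-- additivity of the condenser in characteristic two. -/
theorem guv_add [CharP F 2] (E : F[X]) (hE : E.Monic) (hirr : Irreducible E) (m : ℕ) (y : F)
    (f g : AdjoinRoot E) :
    guv E hE m y (f + g) = guv E hE m y f + guv E hE m y g := by
  have : Fact (Irreducible E) := ⟨hirr⟩
  have : CharP (AdjoinRoot E) 2 :=
    charP_of_injective_algebraMap (FaithfulSMul.algebraMap_injective F (AdjoinRoot E)) 2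
  ext i
  simp only [guv, Pi.add_apply]
  rw [add_pow_char_pow, map_add, eval_add]

end Vale.Agent.P318.H986
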