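import Mathlib

/-! # P318, module GRIDS, part 1: sampling and collision along a list of operators -/

namespace Vale.Agent.P318.H986

open Finset

section Sampling

variable {Ω Δ : Type*} [Fintype Ω] [Fintype Δ]

/-- `2 ^ x ≤ 1 + x` on `[0,1]`. -/
theorem two_rpow_le {x : ℝ} (h0 : 0 ≤ x) (h1 : x ≤ 1) : (2 : ℝ) ^ x ≤ 1 + x := by
  have := rpow_one_add_le_one_add_mul_self (s := 1) (by norm_num) h0 h1
  have h2 : (1 : ℝ) + 1 = 2 := by norm_num
  rw [h2] at this
  linarith

/-- Exponential moment: for functions `f δ : Ω → [0,1]` of mean `≤ p`, and a number `N` of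
samples with `|Δ| ≤ 2^(2 p N)`, there are `N` samples such that all empirical sums are
`≤ 4 p N`. -/
theorem exists_sample [Nonempty Ω] (f : Δ → Ω → ℝ) (h0 : ∀ δ ω, 0 ≤ f δ ω)
    (h1 : ∀ δ ω, f δ ω ≤ 1) (p : ℝ) (hp : 0 ≤ p)
    (hf : ∀ δ, ∑ ω, f δ ω ≤ p * Fintype.card Ω) (N : ℕ)
    (hN : (Fintype.card Δ : ℝ) ≤ 2 ^ (2 * p * N)) :
    ∃ g : Fin N → Ω, ∀ δ, ∑ i, f δ (g i) ≤ 4 * p * N := by
  classical
  have hcard : (0 : ℝ) < Fintype.card Ω := by exact_mod_cast Fintype.card_pos
  -- the exponential moment
  have hmom : ∀ δ, ∑ g : Fin N → Ω, (2 : ℝ) ^ (∑ i, f δ (g i))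
      ≤ (Fintype.card Ω : ℝ) ^ N * (1 + p) ^ N := by
    intro δ
    have e1 : ∑ g : Fin N → Ω, (2 : ℝ) ^ (∑ i, f δ (g i))
        = ∑ g : Fin N → Ω, ∏ i, (2 : ℝ) ^ (f δ (g i)) := by
      refine sum_congr rfl fun g _ => ?_
      rw [Real.rpow_sum_of_pos (by norm_num : (0:ℝ) < 2)]
    rw [e1]
    have e2 : ∑ g : Fin N → Ω, ∏ i, (2 : ℝ) ^ (f δ (g i))
        = (∑ ω, (2 : ℝ) ^ (f δ ω)) ^ N := by
      have := (Finset.prod_univ_sum (fun _ : Fin N => (univ : Finset Ω))
        (fun _ ω => (2 : ℝ) ^ (f δ ω))).symm
      simpa using this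
    rw [e2, ← mul_pow]
    refine pow_le_pow_left₀ (sum_nonneg fun ω _ => Real.rpow_nonneg (by norm_num) _) ?_ N
    calc ∑ ω, (2 : ℝ) ^ (f δ ω) ≤ ∑ ω, (1 + f δ ω) :=
          sum_le_sum fun ω _ => two_rpow_le (h0 δ ω) (h1 δ ω)
      _ = Fintype.card Ω + ∑ ω, f δ ω := by simp [sum_add_distrib]
      _ ≤ Fintype.card Ω * (1 + p) := by have := hf δ; nlinarith
  have hexp : (1 + p) ^ N ≤ (2 : ℝ) ^ (2 * p * N) := by
    have h2 : 1 + p ≤ (2 : ℝ) ^ (2 * p) := by
      have h3 : (4 : ℝ) ^ p = 2 ^ (2 * p) := by
        rw [Real.rpow_mul (by norm_num)]; norm_num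
      rw [← h3]
      calc 1 + p ≤ Real.exp p := by have := Real.add_one_le_exp p; linarith
        _ = (Real.exp 1) ^ p := by rw [← Real.exp_mul, one_mul]
        _ ≤ 4 ^ p := Real.rpow_le_rpow (Real.exp_pos _).le
            (by have := Real.exp_one_lt_d9; linarith) hp
    calc (1 + p) ^ N ≤ ((2 : ℝ) ^ (2 * p)) ^ N := pow_le_pow_left₀ (by linarith) h2 N
      _ = _ := by rw [← Real.rpow_natCast, ← Real.rpow_mul (by norm_num)]
  by_contra hcon
  push Not at hcon
  choose bad hbad using hcon
  have hlt : ∀ g : Fin N → Ω, (2 : ℝ) ^ (4 * p * N) < ∑ δ, (2 : ℝ) ^ (∑ i, f δ (g i)) := by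
    intro g
    refine lt_of_lt_of_le (Real.rpow_lt_rpow_of_exponent_lt (by norm_num) (hbad g)) ?_
    exact Finset.single_le_sum (f := fun δ => (2 : ℝ) ^ (∑ i, f δ (g i)))
      (fun δ _ => Real.rpow_nonneg (by norm_num) _) (mem_univ (bad g))
  have hsum : ∑ g : Fin N → Ω, (2 : ℝ) ^ (4 * p * N)
      < ∑ g : Fin N → Ω, ∑ δ, (2 : ℝ) ^ (∑ i, f δ (g i)) :=
    sum_lt_sum_of_nonempty univ_nonempty fun g _ => hlt g
  rw [sum_comm] at hsum
  have hle : ∑ δ, ∑ g : Fin N → Ω, (2 : ℝ) ^ (∑ i, f δ (g i))
      ≤ Fintype.card Δ * ((Fintype.card Ω : ℝ) ^ N * (1 + p) ^ N) := by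
    calc _ ≤ ∑ _δ : Δ, ((Fintype.card Ω : ℝ) ^ N * (1 + p) ^ N) := sum_le_sum fun δ _ => hmom δ
      _ = _ := by simp
  have hkey : (Fintype.card Δ : ℝ) * ((Fintype.card Ω : ℝ) ^ N * (1 + p) ^ N)
      ≤ (Fintype.card Ω : ℝ) ^ N * 2 ^ (4 * p * N) := by
    have e4 : (2 : ℝ) ^ (4 * p * N) = 2 ^ (2 * p * N) * 2 ^ (2 * p * N) := by
      rw [← Real.rpow_add (by norm_num)]; ring_nf
    rw [e4]
    have hx : (Fintype.card Δ : ℝ) * (1 + p) ^ N ≤ 2 ^ (2 * p * N) * 2 ^ (2 * p * N) :=
      mul_le_mul hN hexp (by positivity) (by positivity)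
    calc (Fintype.card Δ : ℝ) * ((Fintype.card Ω : ℝ) ^ N * (1 + p) ^ N)
        = (Fintype.card Ω : ℝ) ^ N * ((Fintype.card Δ : ℝ) * (1 + p) ^ N) := by ring
      _ ≤ _ := mul_le_mul_of_nonneg_left hx (by positivity)
  have hc : ∑ g : Fin N → Ω, (2 : ℝ) ^ (4 * p * N)
      = (Fintype.card Ω : ℝ) ^ N * 2 ^ (4 * p * N) := by simp
  linarith

end Sampling

section Collision

variable {V F X : Type*}

/-- apply the operators of the nodes in the list `l`, from left to right. -/
def run (op : V → F → X → X) (l : List V) (y : V → F) (x : X) : X :=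
  l.foldl (fun x v => op v (y v) x) x

@[simp] theorem run_nil (op : V → F → X → X) (y : V → F) (x : X) : run op [] y x = x := rfl

@[simp] theorem run_cons (op : V → F → X → X) (v : V) (l : List V) (y : V → F) (x : X) :
    run op (v :: l) y x = run op l y (op v (y v) x) := rfl

theorem run_append (op : V → F → X → X) (l l' : List V) (y : V → F) (x : X) :
    run op (l ++ l') y x = run op l' y (run op l y x) := by
  simp [run, List.foldl_append]

theorem run_congr (op : V → F → X → X) (l : List V) (y y' : V → F) (h : ∀ v ∈ l, y v = y' v)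
    (x : X) : run op l y x = run op l y' x := by
  induction l generalizing x with
  | nil => rfl
  | cons v l ih =>
    rw [run_cons, run_cons, h v (by simp)]
    exact ih (fun w hw => h w (by simp [hw])) _

variable [Fintype V] [DecidableEq V] [Fintype F]

/-- number of `y` with `y v = a` and a property not depending on `y v`. -/
theorem card_fix (v : V) (a : F) (P : (V → F) → Prop) [DecidablePred P] [DecidableEq F]
    (hP : ∀ y b, P (Function.update y v b) ↔ P y) :
    (univ.filter fun y : V → F => y v = a ∧ P y).card * Fintype.card F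
      = (univ.filter fun y : V → F => P y).card := by
  classical
  rw [← Finset.card_univ, ← card_product]
  refine Finset.card_bij' (fun yb _ => Function.update yb.1 v yb.2)
    (fun y _ => (Function.update y v a, y v)) ?_ ?_ ?_ ?_
  · rintro ⟨y, b⟩ h
    simp only [mem_product, mem_filter, mem_univ, true_and, and_true] at h ⊢
    exact (hP y b).mpr h.2
  · intro y h
    simp only [mem_product, mem_filter, mem_univ, true_and, and_true] at h ⊢
    exact ⟨by simp, (hP y a).mpr h⟩
  · rintro ⟨y, b⟩ h
    simp only [mem_product, mem_filter, mem_univ, true_and, and_true] at h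
    ext1
    · simp only [Function.update_idem]
      rw [← h.1, Function.update_eq_self]
    · simp
  · intro y h
    simp

/-- **Collision along a list of nodes**: if a nonzero element is killed by at most `c` seeds at
every node, then a nonzero element is killed by at most a fraction `|l| c / q` of all seed
vectors. -/
theorem collision [Zero X] [DecidableEq X] (op : V → F → X → X) (c : ℕ)
    (hc : ∀ v x, x ≠ 0 → (univ.filter fun a : F => op v a x = 0).card ≤ c)
    (l : List V) (hl : l.Nodup) (x : X) (hx : x ≠ 0) :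
    (univ.filter fun y : V → F => run op l y x = 0).card * Fintype.card F
      ≤ l.length * c * Fintype.card (V → F) := by
  classical
  induction l generalizing x with
  | nil => simp [hx]
  | cons v l ih =>
    rw [List.nodup_cons] at hl
    have hsub : (univ.filter fun y : V → F => run op (v :: l) y x = 0) ⊆
        (univ.filter fun a : F => op v a x = 0).biUnion
            (fun a => univ.filter fun y : V → F => y v = a ∧ True) ∪
        (univ.filter fun a : F => op v a x ≠ 0).biUnion
            (fun a => univ.filter fun y : V → F => y v = a ∧ run op l y (op v a x) = 0) := by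
      intro y hy
      have hy := (mem_filter.mp hy).2
      rw [run_cons] at hy
      simp only [mem_union, mem_biUnion, mem_filter, mem_univ, true_and, and_true]
      by_cases h : op v (y v) x = 0
      · left; exact ⟨y v, h, rfl⟩
      · right; exact ⟨y v, h, rfl, hy⟩
    have h1 := card_le_card hsub
    have h2 := h1.trans (card_union_le _ _)
    have h3 : ((univ.filter fun a : F => op v a x = 0).biUnion
        (fun a => univ.filter fun y : V → F => y v = a ∧ True)).card * Fintype.card F
        ≤ c * Fintype.card (V → F) := by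
      refine (Nat.mul_le_mul_right _ card_biUnion_le).trans ?_
      rw [sum_mul]
      calc ∑ a ∈ univ.filter (fun a : F => op v a x = 0),
            (univ.filter fun y : V → F => y v = a ∧ True).card * Fintype.card F
          = ∑ a ∈ univ.filter (fun a : F => op v a x = 0), Fintype.card (V → F) := by
            refine sum_congr rfl fun a _ => ?_
            rw [card_fix v a (fun _ => True) (fun _ _ => Iff.rfl)]
            simp
        _ ≤ c * Fintype.card (V → F) := by
            rw [sum_const, smul_eq_mul]
            exact Nat.mul_le_mul_right _ (hc v x hx)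
    have h4 : ((univ.filter fun a : F => op v a x ≠ 0).biUnion
        (fun a => univ.filter fun y : V → F => y v = a ∧ run op l y (op v a x) = 0)).card
          * Fintype.card F
        ≤ l.length * c * Fintype.card (V → F) := by
      rcases Nat.eq_zero_or_pos (Fintype.card F) with hF | hF
      · rw [hF]; simp
      refine Nat.le_of_mul_le_mul_right ?_ hF
      rw [mul_assoc]
      calc _ ≤ (∑ a ∈ univ.filter (fun a : F => op v a x ≠ 0),
            (univ.filter fun y : V → F => y v = a ∧ run op l y (op v a x) = 0).card)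
              * (Fintype.card F * Fintype.card F) := Nat.mul_le_mul_right _ card_biUnion_le
        _ = ∑ a ∈ univ.filter (fun a : F => op v a x ≠ 0),
            (univ.filter fun y : V → F => run op l y (op v a x) = 0).card * Fintype.card F := by
            rw [sum_mul]
            refine sum_congr rfl fun a _ => ?_
            rw [← mul_assoc, card_fix v a (fun y => run op l y (op v a x) = 0)]
            intro y b
            rw [run_congr op l (Function.update y v b) y]
            intro w hw
            have : w ≠ v := by rintro rfl; exact hl.1 hw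
            simp [this]
        _ ≤ ∑ _a ∈ univ.filter (fun a : F => op v a x ≠ 0),
            l.length * c * Fintype.card (V → F) := by
            refine sum_le_sum fun a ha => ?_
            exact ih hl.2 _ (by simpa using ha)
        _ ≤ l.length * c * Fintype.card (V → F) * Fintype.card F := by
            rw [sum_const, smul_eq_mul, mul_comm]
            exact Nat.mul_le_mul_left _ (card_le_univ _)
    have h5 := Nat.mul_le_mul_right (Fintype.card F) h2
    rw [add_mul] at h5
    calc _ ≤ _ := h5
      _ ≤ c * Fintype.card (V → F) + l.length * c * Fintype.card (V → F) := add_le_add h3 h4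
      _ = (v :: l).length * c * Fintype.card (V → F) := by rw [List.length_cons]; ring

end Collision

end Vale.Agent.P318.H986
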